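import Vale.Agent.P141.Instances

/-!
# P141: a negative range for the trilinear Hilbert transform
-/

namespace Vale.Agent.Results.P141.NegativeRange

open Vale.Agent.P141

/-- The trilinear Hilbert transform is unbounded at every Hölder tuple with `r < 1/2` satisfying
the entropy criterion, at some tuple for every `r` in `(1/3, 1/2)`, and at every tuple with equal
exponents and `1/3 < r ≤ 7/15`. -/
theorem result :
    (∀ (G : Finset (ℤ × ℤ)) (q : ℤ × ℤ → ℝ) (p₁ p₂ p₃ r : ℝ), IsLaw G q →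
      1 < p₁ → 1 < p₂ → 1 < p₃ → 0 < r → r < 1 / 2 → 1 / r = 1 / p₁ + 1 / p₂ + 1 / p₃ →
      ent G q (fun z => z.1 - z.2) / p₁ + ent G q (fun z => z.1 - 2 * z.2) / p₂ +
          ent G q (fun z => z.1 - 3 * z.2) / p₃ <
        (1 / r - 2) * ent G q (fun z => z.1) + ent G q id →
      UnboundedAt p₁ p₂ p₃ r) ∧
    (∀ r : ℝ, 1 / 3 < r → r < 1 / 2 →
      ∃ p₁ p₂ p₃ : ℝ, 1 < p₁ ∧ 1 < p₂ ∧ 1 < p₃ ∧ 1 / r = 1 / p₁ + 1 / p₂ + 1 / p₃ ∧
        UnboundedAt p₁ p₂ p₃ r) ∧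
    ∀ r : ℝ, 1 / 3 < r → r ≤ 7 / 15 → UnboundedAt (3 * r) (3 * r) (3 * r) r :=
  ⟨fun G q p₁ p₂ p₃ r hq h₁ h₂ h₃ hr hr2 hH hc =>
    unboundedAt_of_entropy G q hq p₁ p₂ p₃ r h₁ h₂ h₃ hr hr2 hH hc,
    fun _ h h' => exists_unbounded h h', fun _ h h' => unbounded_equal h h'⟩

end Vale.Agent.Results.P141.NegativeRange
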